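import Vale.Agent.P011UGA.IF3
import Vale.Agent.P011UMS.Dat

/-!
The choice of the Levi subgroup and of the element of the torus in the exceptional types.
-/

set_option autoImplicit false
set_option linter.all false

namespace Vale.Agent.P011UCE

open Matrix CartanMatrix Vale.Agent.P183CH Vale.Agent.P011U Vale.Agent.P011UD Vale.Agent.P011UP
  Vale.Agent.P011UGA Vale.Agent.P011UMS

/-- the check of the choice -/
def Ce {n m : ℕ} (C : Matrix (Fin n) (Fin n) ℤ) (L : List ℕ) (j : Fin n) (y : Fin n → ℤ) (q : ℤ)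
    (ι : Fin m → Fin n) (C' : Matrix (Fin m) (Fin m) ℤ) (up : Fin n → Fin n) (rk : Fin n → ℕ)
    (o : Fin n) : Prop :=
  (∀ i : Fin n, 8 ^ i.1 ∈ L ∧ ∀ l, dc n (8 ^ i.1) l = if l = i then 1 else 0) ∧
  (∀ a ∈ L, (∃ i : Fin n, a = 8 ^ i.1) ∨ ∃ i : Fin n, a ≠ 8 ^ i.1 ∧ 0 < ∑ l, dc n a l * C l i) ∧
  (∃ i, i ≠ j ∧ ¬q ∣ ∑ l, C i l * y l) ∧
  2 * (L.filter fun a => ¬q ∣ ∑ i, (∑ l, dc n a l * C l i) * y i).length <
    n + 2 * (L.filter fun a => dc n a j = 0).length ∧
  (∀ i, i ≠ j → i = o ∨ up i ≠ j ∧ rk (up i) < rk i ∧ C i (up i) ≠ 0 ∧ C (up i) i ≠ 0) ∧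
  (∀ a b, ι a = ι b → a = b) ∧ (∀ i, i ≠ j ↔ ∃ a, ι a = i) ∧ ∀ a b, C (ι a) (ι b) = C' a b

instance {n m : ℕ} (C : Matrix (Fin n) (Fin n) ℤ) (L : List ℕ) (j : Fin n) (y : Fin n → ℤ) (q : ℤ)
    (ι : Fin m → Fin n) (C' : Matrix (Fin m) (Fin m) ℤ) (up : Fin n → Fin n) (rk : Fin n → ℕ)
    (o : Fin n) : Decidable (Ce C L j y q ι C' up rk o) := by
  unfold Ce
  refine @instDecidableAnd _ _ ?_ (@instDecidableAnd _ _ ?_ (@instDecidableAnd _ _ ?_
    (@instDecidableAnd _ _ ?_ (@instDecidableAnd _ _ ?_ (@instDecidableAnd _ _ ?_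
      (@instDecidableAnd _ _ ?_ (@Fintype.decidableForallFintype _ _ (fun _ =>
        @Fintype.decidableForallFintype _ _ (fun _ => Int.decEq _ _) _) _))))))) <;> infer_instance

theorem cho {R : RS} (hR : R.Ok) {n m k : ℕ} {C : Matrix (Fin n) (Fin n) ℤ} {L : List ℕ}
    {j : Fin n} {y d : Fin n → ℤ} {q : ℤ} {ι : Fin m → Fin n} {C' : Matrix (Fin m) (Fin m) ℤ}
    {up : Fin n → Fin n} {rk : Fin n → ℕ} {o : Fin n} (t : Tm R.A C) (c : Ck C d L k)
    (au : ∀ p, Au C p → p = 1) (h : Ce C L j y q ι C' up rk o) (hq : q = 0 ∨ q = 2)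
    (hb : Big C') : Cho R := by
  classical
  obtain ⟨e, t⟩ := t
  obtain ⟨h1, h2, ⟨i0, h3, h3'⟩, h4, h5, h6, h7, h8⟩ := h
  have D := (c.dat fun p hp => .inl (au p hp)).tr e t
  obtain ⟨-, c2, c3, c4, -⟩ := c
  set u : ℕ → R.Q := fun a i => dc n a (e i) with hu
  have pr : ∀ a i, R.pr (u a) i = ∑ l, dc n a l * C l (e i) := fun a i => by
    simp only [RS.pr_eq, t, hu]
    exact e.sum_comp fun l => dc n a l * C l (e i)
  have sa : ∀ (γ : R.Q) i l, R.s i γ l = γ l - if l = i then R.pr γ i else 0 := fun γ i l => by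
    simp only [RS.s, Pi.sub_apply, Pi.smul_apply, RS.α_apply, smul_eq_mul, mul_ite, mul_one,
      mul_zero]
  have ua : ∀ i, u (8 ^ (e i).1) = R.α i := fun i => funext fun l => by
    simp only [hu, (h1 _).2, RS.α_apply, e.apply_eq_iff_eq]
  have sub : ∀ γ ∈ R.Φ, ∃ a ∈ L, γ = u a ∨ γ = -u a := fun γ hγ => by
    obtain ⟨w, i, rfl⟩ := hR.conj γ hγ
    clear hγ
    induction w with
    | nil => exact ⟨_, (h1 _).1, .inl (ua i).symm⟩
    | cons i' w ih =>
      obtain ⟨a, ha, ih⟩ := ih
      obtain ⟨b, hb, ε, k⟩ := D.rf i' a (List.mem_toFinset.2 ha)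
      have k1 : R.s i' (u a) = u b ∨ R.s i' (u a) = -u b :=
        (Int.units_eq_one_or ε).imp (fun z => funext fun l => by
          simpa [sa, RS.pr_eq, z, hu] using k l) fun z => funext fun l => by
            simpa [sa, RS.pr_eq, z, hu] using k l
      refine ⟨b, List.mem_toFinset.1 hb, ?_⟩
      rw [List.foldr_cons]
      rcases ih with ih | ih <;> rw [ih]
      · exact k1
      · rw [← RS.sL_apply, map_neg, RS.sL_apply]
        exact k1.symm.imp (fun z => by rw [z, neg_neg]) fun z => by rw [z]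
  have mem : ∀ a, a ∈ L → u a ∈ R.Φ := fun a => by
    induction a using Nat.strong_induction_on with
    | _ a ih =>
      intro ha
      rcases h2 a ha with ⟨i, rfl⟩ | ⟨i, k1, k2⟩
      · rw [← e.apply_symm_apply i, ua]
        exact hR.simple _
      · obtain ⟨k3, k4⟩ := (c4 i a ha).resolve_left k1
        have k5 := mul_pos k2 (pow_pos (show (0 : ℤ) < 8 by decide) i.1)
        have k6 := hR.refl (e.symm i) _ (ih _ (by have := (c3 a ha).1; omega) k3)
        have k7 : u (a - (∑ l, dc n a l * C l i) * 8 ^ i.1).toNat = R.sL (e.symm i) (u a) :=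
          funext fun l => by
            simp only [RS.sL_apply, sa, pr, e.apply_symm_apply, e.eq_symm_apply]
            exact (k4 (e l)).symm
        rwa [k7, ← RS.sL_apply, R.sL_invol (hR.diag _)] at k6
  have pw' : ∀ a, pw (fun i => y (e i)) (u a) = ∑ i, (∑ l, dc n a l * C l i) * y i := fun a => by
    simp only [pw, pr]
    exact e.sum_comp fun i => (∑ l, dc n a l * C l i) * y i
  intro p hp _
  obtain rfl : p = 1 := e.permCongr.injective
    ((au _ (Ty.au t hp)).trans (Equiv.permCongr_refl e).symm)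
  refine ⟨e.symm j, fun i => y (e i), q, rfl, fun _ => rfl, hq,
    ⟨e.symm i0, e.symm.injective.ne h3, ?_⟩, ?_, fun P a ha b hb pa st => ?_, m,
    ⟨fun a => e.symm (ι a), fun a b z => h6 a b (e.symm.injective z)⟩, Set.ext fun i => ?_,
    .inl ?_⟩
  · rw [pw, ← e.symm.sum_comp]
    simpa only [RS.pr_α, t, e.apply_symm_apply] using h3'
  · have r : R.r = n := by simpa using Fintype.card_congr e
    refine lt_of_le_of_lt ?_ (h4.trans_le (add_le_add r.ge ?_))
    · refine (Finset.card_le_card (t := (L.filter fun a =>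
        ¬q ∣ ∑ i, (∑ l, dc n a l * C l i) * y i).toFinset.image u ∪ (L.filter fun a =>
        ¬q ∣ ∑ i, (∑ l, dc n a l * C l i) * y i).toFinset.image fun a => -u a) fun γ hγ => ?_).trans
        ((Finset.card_union_le _ _).trans ((add_le_add
          (Finset.card_image_le.trans (List.toFinset_card_le _))
          (Finset.card_image_le.trans (List.toFinset_card_le _))).trans_eq (two_mul _).symm))
      obtain ⟨k1, k2⟩ := Finset.mem_filter.1 hγ
      obtain ⟨a, ha, rfl | rfl⟩ := sub γ k1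
      · exact Finset.mem_union_left _ (Finset.mem_image_of_mem _ (List.mem_toFinset.2
          (List.mem_filter.2 ⟨ha, decide_eq_true (by rwa [← pw'])⟩)))
      · exact Finset.mem_union_right _ (Finset.mem_image_of_mem _ (List.mem_toFinset.2
          (List.mem_filter.2 ⟨ha, decide_eq_true (by rwa [← pw', ← dvd_neg, ← pw_neg])⟩)))
    · have s : ∀ a ∈ (L.filter fun a => dc n a j = 0).toFinset,
          a ∈ L.toFinset ∧ R.In {i | i ≠ e.symm j} (u a) := fun a ha => by
        obtain ⟨k1, k2⟩ := List.mem_filter.1 (List.mem_toFinset.1 ha)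
        refine ⟨List.mem_toFinset.2 k1, fun i hi => ?_⟩
        obtain rfl : i = e.symm j := not_not.1 hi
        simpa only [hu, e.apply_symm_apply] using of_decide_eq_true k2
      refine le_trans ?_ (Finset.card_le_card (s := (L.filter fun a =>
        dc n a j = 0).toFinset.image u ∪ (L.filter fun a => dc n a j = 0).toFinset.image
          fun a => -u a) fun γ hγ => ?_)
      · rw [Finset.card_union_of_disjoint (Finset.disjoint_left.2 fun γ k1 k2 => by
          obtain ⟨a, ha, rfl⟩ := Finset.mem_image.1 k1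
          obtain ⟨b, hb, z⟩ := Finset.mem_image.1 k2
          exact D.dis a (s a ha).1 b (s b hb).1 z.symm),
          Finset.card_image_of_injOn fun a ha b hb z => D.inj a (s a ha).1 b (s b hb).1 z,
          Finset.card_image_of_injOn fun a ha b hb z =>
            D.inj a (s a ha).1 b (s b hb).1 (neg_injective z),
          List.toFinset_card_of_nodup (c2.filter _), two_mul]
      · rcases Finset.mem_union.1 hγ with k | k <;> obtain ⟨a, ha, rfl⟩ := Finset.mem_image.1 k
        · exact Finset.mem_filter.2 ⟨mem a (List.mem_toFinset.1 (s a ha).1), (s a ha).2⟩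
        · exact Finset.mem_filter.2 ⟨hR.neg_mem (mem a (List.mem_toFinset.1 (s a ha).1)),
            (s a ha).2.neg⟩
  · have k : ∀ r i, rk i = r → i ≠ j → (P (e.symm i) ↔ P (e.symm o)) := fun r => by
      induction r using Nat.strong_induction_on with
      | _ r ih =>
        rintro i rfl hi
        rcases h5 i hi with rfl | ⟨k1, k2, k3, k4⟩
        · rfl
        · rw [← ih _ k2 _ rfl k1]
          exact ⟨fun z => st _ (e.symm.injective.ne hi) _ (e.symm.injective.ne k1) z
            (by simpa only [t, e.apply_symm_apply] using k4), fun z => st _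
              (e.symm.injective.ne k1) _ (e.symm.injective.ne hi) z
              (by simpa only [t, e.apply_symm_apply] using k3)⟩
    have k1 := k _ (e a) rfl fun z => ha (e.eq_symm_apply.2 z)
    have k2 := k _ (e b) rfl fun z => hb (e.eq_symm_apply.2 z)
    rw [e.symm_apply_apply] at k1 k2
    exact k2.2 (k1.1 pa)
  · show (∃ a, e.symm (ι a) = i) ↔ i ≠ e.symm j
    simpa only [e.symm_apply_eq, ne_eq, e.eq_symm_apply] using (h7 (e i)).symm
  · rwa [show R.A.submatrix _ _ = C' from Matrix.ext fun a b => by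
      show R.A (e.symm (ι a)) (e.symm (ι b)) = _
      simp only [t, e.apply_symm_apply, h8]]

/-- the positive roots of `E₈` -/
def L8 : List ℕ := [2097152, 262144, 32768, 4096, 512, 64, 8, 1, 2359296, 294912,
    36864, 4608, 576, 520, 65, 2392064, 299008, 37376, 4672, 4616, 584, 577, 2396160, 299520, 37440,
    37384, 4680, 4673, 585, 2396672, 299584, 299528, 37448, 5192, 37441, 4681, 2396736, 2396680,
    299592, 37960, 299585, 37449, 5193, 2396744, 300104, 42056, 2396737, 299593, 37961, 5257,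
    2397256, 304200, 2396745, 300105, 42057, 38025, 2401352, 336968, 2397257, 304201, 300169, 42121,
    2434120, 2401353, 336969, 2397321, 304265, 42633, 2696264, 2434121, 2401417, 337033, 304777,
    42641, 2696265, 2434185, 2401929, 337545, 304785, 2696329, 2434697, 341641, 2401937, 337553,
    2696841, 2438793, 2434705, 341649, 2700937, 2696849, 2438801, 342161, 2733705, 2700945, 2439313,
    342225, 2733713, 2701457, 2439377, 342226, 2734225, 2701521, 2439378, 2738321, 2734289, 2701522,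
    2738385, 2734290, 2738897, 2738386, 2738905, 2738898, 2738962, 2738906, 2738970, 2739482,
    2743578, 2776346, 3038490, 5135642]

/-- the positive roots of `E₇` -/
def L7 : List ℕ := [262144, 32768, 4096, 512, 64, 8, 1, 294912, 36864, 4608, 576,
    520, 65, 299008, 37376, 4672, 4616, 584, 577, 299520, 37440, 37384, 4680, 4673, 585, 299584,
    299528, 37448, 5192, 37441, 4681, 299592, 37960, 299585, 37449, 5193, 300104, 42056, 299593,
    37961, 5257, 304200, 300105, 42057, 38025, 336968, 304201, 300169, 42121, 336969, 304265, 42633,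
    337033, 304777, 42641, 337545, 304785, 341641, 337553, 341649, 342161, 342225, 342226]

/-- the positive roots of `F₄` -/
def LF : List ℕ := [512, 64, 8, 1, 576, 72, 9, 584, 136, 73, 648, 585, 137, 1160,
    649, 145, 1161, 657, 1169, 721, 1233, 1297, 1305, 1306]

theorem ce8 : Ce E₈ L8 7 ![1, 0, 0, 0, 0, 0, 0, 0] 0 ![0, 1, 2, 3, 4, 5, 6] E₇
    ![0, 3, 0, 2, 3, 4, 5, 6] ![0, 3, 1, 2, 3, 4, 5, 6] 0 := by decide +kernel

theorem ce7 : Ce E₇ L7 0 ![0, 1, 0, 0, 0, 0, 0] 0 ![6, 5, 4, 3, 1, 2] (D 6)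
    ![0, 1, 3, 1, 3, 4, 5] ![0, 0, 2, 1, 2, 3, 4] 1 := by decide +kernel

theorem ceF : Ce F₄ LF 3 ![0, 0, 0, 1] 2 ![0, 1, 2] (B 3) ![0, 0, 1, 2] ![0, 1, 2, 3] 0 := by
  decide +kernel

/-- The exceptional types. -/
theorem cme : CME := fun _ hR h => by
  rcases h with h | h | h
  · exact cho hR h ckE7 (fun _ => autE7) ce7 (.inl rfl)
      (.inr (.inr (.inl ⟨6, by decide, .refl _, fun _ _ => rfl⟩)))
  · exact cho hR h ckE8 (fun _ => autE8) ce8 (.inl rfl)
      (.inr (.inr (.inr (.inl ⟨.refl _, fun _ _ => rfl⟩))))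
  · exact cho hR h ckF (fun _ => autF) ceF (.inr rfl) (.inl ⟨3, le_rfl, .refl _, fun _ _ => rfl⟩)

end Vale.Agent.P011UCE
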